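import Mathlib

/-!
Row 33, conditional chain.  File 2: dyadic slabs of a real number.

`didx y n = ⌊y * 2^n⌋`, `dlo y n = didx y n / 2^n` (lower end of the slab of level `n` containing `y`),
`dtent y n` = distance of `y` to the ends of its slab, written by cases LOW / HIGH.
-/

set_option autoImplicit false

namespace Claimed.Agent.R033

/-- index of the dyadic slab of level `n` that contains `y` -/
noncomputable def didx (y : ℝ) (n : ℕ) : ℤ := ⌊y * 2 ^ n⌋

/-- lower end of that slab -/
noncomputable def dlo (y : ℝ) (n : ℕ) : ℝ := (didx y n : ℝ) / 2 ^ n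

/-- `y` lies in the lower half of its slab of level `n` -/
def DLow (y : ℝ) (n : ℕ) : Prop := didx y (n + 1) = 2 * didx y n

open Classical in
/-- tent function of level `n` -/
noncomputable def dtent (y : ℝ) (n : ℕ) : ℝ :=
  if DLow y n then y - dlo y n else dlo y n + 1 / 2 ^ n - y

theorem pow2_pos (n : ℕ) : (0 : ℝ) < 2 ^ n := by positivity

theorem dlo_le (y : ℝ) (n : ℕ) : dlo y n ≤ y := by
  unfold dlo didx
  rw [div_le_iff₀ (pow2_pos n)]
  exact Int.floor_le _

theorem lt_dlo_add (y : ℝ) (n : ℕ) : y < dlo y n + 1 / 2 ^ n := by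
  unfold dlo didx
  rw [← add_div, lt_div_iff₀ (pow2_pos n)]
  exact Int.lt_floor_add_one _

theorem didx_mono {y z : ℝ} (h : y ≤ z) (n : ℕ) : didx y n ≤ didx z n := by
  unfold didx
  exact Int.floor_le_floor (mul_le_mul_of_nonneg_right h (pow2_pos n).le)

theorem didx_succ (y : ℝ) (n : ℕ) :
    didx y (n + 1) = 2 * didx y n ∨ didx y (n + 1) = 2 * didx y n + 1 := by
  have h1 : (didx y n : ℝ) ≤ y * 2 ^ n := Int.floor_le _
  have h2 : y * 2 ^ n < (didx y n : ℝ) + 1 := Int.lt_floor_add_one _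
  have e : y * 2 ^ (n + 1) = 2 * (y * 2 ^ n) := by ring
  have l : 2 * didx y n ≤ didx y (n + 1) := by
    unfold didx at *
    rw [Int.le_floor]; push_cast; rw [e]; linarith
  have u : didx y (n + 1) < 2 * didx y n + 2 := by
    unfold didx at *
    rw [Int.floor_lt]; push_cast; rw [e]; linarith
  omega

theorem dlo_succ_of_low {y : ℝ} {n : ℕ} (h : DLow y n) : dlo y (n + 1) = dlo y n := by
  unfold dlo; rw [h]; push_cast
  rw [pow_succ]; field_simp

theorem dlo_succ_of_not_low {y : ℝ} {n : ℕ} (h : ¬ DLow y n) :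
    dlo y (n + 1) = dlo y n + 1 / 2 ^ (n + 1) := by
  have h' : didx y (n + 1) = 2 * didx y n + 1 := by
    rcases didx_succ y n with h1 | h1
    · exact absurd h1 h
    · exact h1
  unfold dlo; rw [h']; push_cast
  rw [pow_succ]; field_simp

theorem dlo_eq_of_didx_eq {y z : ℝ} {n : ℕ} (h : didx y n = didx z n) : dlo y n = dlo z n := by
  unfold dlo; rw [h]

/-- different slabs, in the right order: the slab of `y` ends before the slab of `z` starts -/
theorem dlo_add_le_of_lt {y z : ℝ} {n : ℕ} (h : didx y n < didx z n) :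
    dlo y n + 1 / 2 ^ n ≤ dlo z n := by
  unfold dlo
  rw [← add_div]
  apply div_le_div_of_nonneg_right _ (pow2_pos n).le
  have : didx y n + 1 ≤ didx z n := h
  exact_mod_cast this

theorem dtent_nonneg (y : ℝ) (n : ℕ) : 0 ≤ dtent y n := by
  unfold dtent
  split_ifs
  · linarith [dlo_le y n]
  · linarith [lt_dlo_add y n]

/-- same slab: the difference is smaller than the width -/
theorem sub_lt_of_didx_eq {y z : ℝ} {n : ℕ} (h : didx y n = didx z n) : y - z < 1 / 2 ^ n := by
  have := lt_dlo_add y n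
  have := dlo_le z n
  have := dlo_eq_of_didx_eq h
  linarith

theorem dlo_eq_sub_fract (y : ℝ) (n : ℕ) : y - dlo y n = Int.fract (y * 2 ^ n) / 2 ^ n := by
  unfold dlo didx Int.fract
  field_simp

/-- the tent is large when the fractional part is in the middle third -/
theorem dtent_ge {y : ℝ} {n : ℕ} (h1 : 1 / 3 ≤ Int.fract (y * 2 ^ n))
    (h2 : Int.fract (y * 2 ^ n) ≤ 2 / 3) : 1 / 3 / 2 ^ n ≤ dtent y n := by
  have e := dlo_eq_sub_fract y n
  have p := pow2_pos n
  have a : 1 / 3 / 2 ^ n ≤ Int.fract (y * 2 ^ n) / 2 ^ n :=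
    div_le_div_of_nonneg_right h1 p.le
  have b : Int.fract (y * 2 ^ n) / 2 ^ n ≤ 2 / 3 / 2 ^ n :=
    div_le_div_of_nonneg_right h2 p.le
  have c : (1 : ℝ) / 2 ^ n = 1 / 3 / 2 ^ n + 2 / 3 / 2 ^ n := by field_simp; norm_num
  unfold dtent
  split_ifs
  · linarith
  · linarith

end Claimed.Agent.R033
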