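import Claimed.Agent.R033.Signs
import Claimed.Agent.R033.Dyadic

/-!
Row 33, conditional chain.  File 3: the multiplicative cascade (proof text: docs/R033_helper870.md, Part 6, on branch helper870).

`f : V → ℝ` arbitrary, `c n x` = name of the class of `x` at level `n`; the only hypothesis on `c`:
adjacent vertices in the same slab of level `n` have the same class.
`Casc G f c n ι A s`: a finite family (index `ι`) of states `(A i x, s i x)`; the value of the `i`-th function at `x` is
`cval f n (A i) (s i) x = A i x + s i x * (f x - dlo (f x) n)`.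
-/

set_option autoImplicit false
set_option linter.unusedSectionVars false

namespace Claimed.Agent.R033

open Finset

variable {V : Type} {K : Type} [Fintype K] [DecidableEq K]

/-- value of a state at level `n` -/
noncomputable def cval (f : V → ℝ) (n : ℕ) (A s : V → ℝ) (x : V) : ℝ :=
  A x + s x * (f x - dlo (f x) n)

structure Casc (G : SimpleGraph V) (f : V → ℝ) (c : ℕ → V → K) (n : ℕ)
    (ι : Type) [Fintype ι] (A s : ι → V → ℝ) : Prop where
  ne : Nonempty ι
  s_nonneg : ∀ i x, 0 ≤ s i x
  edge : ∀ i u v, G.Adj u v → f u ≤ f v →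
    (didx (f u) n = didx (f v) n ∧ s i u = s i v ∧ A i u = A i v) ∨ A i u + s i u / 2 ^ n ≤ A i v
  sum_s : ∀ x, ∑ i, s i x = Fintype.card ι
  sum_f : ∀ x, ∑ i, cval f n (A i) (s i) x = Fintype.card ι * f x
  lower : ∀ x z m, m < n → c m x ≠ c m z →
    (Fintype.card ι : ℝ) * dtent (f x) m ≤ ∑ i, |cval f n (A i) (s i) x - cval f n (A i) (s i) z|

open Classical in
/-- new slope -/
noncomputable def sNext (f : V → ℝ) (c : ℕ → V → K) (n : ℕ) (s : V → ℝ) (θ : K → Bool) (x : V) : ℝ :=
  if DLow (f x) n then s x * (1 + sg θ (c n x)) else s x * (1 - sg θ (c n x))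

open Classical in
/-- new base value -/
noncomputable def ANext (f : V → ℝ) (c : ℕ → V → K) (n : ℕ) (A s : V → ℝ) (θ : K → Bool) (x : V) : ℝ :=
  if DLow (f x) n then A x else A x + s x * (1 + sg θ (c n x)) / 2 ^ (n + 1)

theorem cval_next (f : V → ℝ) (c : ℕ → V → K) (n : ℕ) (A s : V → ℝ) (θ : K → Bool) (x : V) :
    cval f (n + 1) (ANext f c n A s θ) (sNext f c n s θ) x
      = cval f n A s x + s x * dtent (f x) n * sg θ (c n x) := by
  unfold cval ANext sNext dtent
  by_cases h : DLow (f x) n
  · simp only [h, if_true]
    rw [dlo_succ_of_low h]; ring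
  · simp only [h, if_false]
    rw [dlo_succ_of_not_low h]
    have : (2 : ℝ) ^ (n + 1) = 2 * 2 ^ n := by ring
    rw [this]
    have p := pow2_pos n
    field_simp
    ring

theorem casc_zero (G : SimpleGraph V) (f : V → ℝ) (c : ℕ → V → K) :
    Casc G f c 0 Unit (fun _ x => dlo (f x) 0) (fun _ _ => 1) where
  ne := ⟨()⟩
  s_nonneg := fun _ _ => zero_le_one
  edge := by
    intro _ u v _ huv
    rcases (didx_mono huv 0).lt_or_eq with h | h
    · right; simpa using dlo_add_le_of_lt h
    · left; exact ⟨h, rfl, dlo_eq_of_didx_eq h⟩
  sum_s := by intro x; simp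
  sum_f := by intro x; simp [cval]
  lower := by intro x z m hm; exact absurd hm (Nat.not_lt_zero m)

theorem casc_succ {G : SimpleGraph V} {f : V → ℝ} {c : ℕ → V → K}
    (hc : ∀ n u v, G.Adj u v → didx (f u) n = didx (f v) n → c n u = c n v)
    {n : ℕ} {ι : Type} [Fintype ι] {A s : ι → V → ℝ} (H : Casc G f c n ι A s) :
    Casc G f c (n + 1) (ι × (K → Bool))
      (fun p => ANext f c n (A p.1) (s p.1) p.2) (fun p => sNext f c n (s p.1) p.2) where
  ne := by
    obtain ⟨i⟩ := H.ne
    exact ⟨(i, fun _ => true)⟩
  s_nonneg := by
    rintro ⟨i, θ⟩ x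
    have h0 := H.s_nonneg i x
    have h1 := sg_le_one θ (c n x)
    have h2 := neg_one_le_sg θ (c n x)
    simp only [sNext]
    split_ifs
    · exact mul_nonneg h0 (by linarith)
    · exact mul_nonneg h0 (by linarith)
  edge := by
    rintro ⟨i, θ⟩ u v huv hf
    have p := pow2_pos n
    have p1 : (2 : ℝ) ^ (n + 1) = 2 * 2 ^ n := by ring
    have su := H.s_nonneg i u
    have sv := H.s_nonneg i v
    have e1u := sg_le_one θ (c n u)
    have e2u := neg_one_le_sg θ (c n u)
    have e1v := sg_le_one θ (c n v)
    have e2v := neg_one_le_sg θ (c n v)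
    rcases H.edge i u v huv hf with ⟨hi, hs, hA⟩ | hsep
    · have hcc : c n u = c n v := hc n u v huv hi
      by_cases hu : DLow (f u) n <;> by_cases hv : DLow (f v) n
      · left
        refine ⟨?_, ?_, ?_⟩
        · rw [hu, hv, hi]
        · simp only [sNext, hu, hv, if_true, hs, hcc]
        · simp only [ANext, hu, hv, if_true, hA]
      · right
        simp only [ANext, sNext, hu, hv, if_true, if_false, hs, hcc, hA]
        exact le_of_eq rfl
      · exfalso
        have h1 : didx (f u) (n + 1) = 2 * didx (f u) n + 1 := by
          rcases didx_succ (f u) n with h | h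
          · exact absurd h hu
          · exact h
        have h2 : didx (f v) (n + 1) = 2 * didx (f v) n := hv
        have h3 := didx_mono hf (n + 1)
        omega
      · left
        have h1 : didx (f u) (n + 1) = 2 * didx (f u) n + 1 := by
          rcases didx_succ (f u) n with h | h
          · exact absurd h hu
          · exact h
        have h2 : didx (f v) (n + 1) = 2 * didx (f v) n + 1 := by
          rcases didx_succ (f v) n with h | h
          · exact absurd h hv
          · exact h
        refine ⟨?_, ?_, ?_⟩
        · rw [h1, h2, hi]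
        · simp only [sNext, hu, hv, if_false, hs, hcc]
        · simp only [ANext, hu, hv, if_false, hA, hs, hcc]
    · right
      -- upper end decreases, lower end increases
      have hB : ANext f c n (A i) (s i) θ u + sNext f c n (s i) θ u / 2 ^ (n + 1)
          ≤ A i u + s i u / 2 ^ n := by
        simp only [ANext, sNext]
        split_ifs
        · rw [p1]
          have : s i u * (1 + sg θ (c n u)) / (2 * 2 ^ n) ≤ s i u * 2 / (2 * 2 ^ n) := by
            apply div_le_div_of_nonneg_right _ (by positivity)
            exact mul_le_mul_of_nonneg_left (by linarith) su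
          have e : s i u * 2 / (2 * 2 ^ n) = s i u / 2 ^ n := by field_simp
          linarith
        · rw [p1]
          apply le_of_eq
          field_simp
          ring
      have hA' : A i v ≤ ANext f c n (A i) (s i) θ v := by
        simp only [ANext]
        split_ifs
        · exact le_rfl
        · have : 0 ≤ s i v * (1 + sg θ (c n v)) / 2 ^ (n + 1) := by
            apply div_nonneg _ (by positivity)
            exact mul_nonneg sv (by linarith)
          linarith
      exact le_trans hB (le_trans hsep hA')
  sum_s := by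
    intro x
    rw [Fintype.sum_prod_type, Fintype.card_prod]
    have : ∀ i, ∑ θ : K → Bool, sNext f c n (s i) θ x = (Fintype.card (K → Bool) : ℝ) * s i x := by
      intro i
      simp only [sNext]
      split_ifs
      · simp only [mul_add, mul_one, Finset.sum_add_distrib, ← Finset.mul_sum, sum_sg]
        simp
      · simp only [mul_sub, mul_one, Finset.sum_sub_distrib, ← Finset.mul_sum, sum_sg]
        simp
    simp only [this, ← Finset.mul_sum, H.sum_s]
    push_cast; ring
  sum_f := by
    intro x
    rw [Fintype.sum_prod_type, Fintype.card_prod]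
    have : ∀ i, ∑ θ : K → Bool, cval f (n + 1) (ANext f c n (A i) (s i) θ) (sNext f c n (s i) θ) x
        = (Fintype.card (K → Bool) : ℝ) * cval f n (A i) (s i) x := by
      intro i
      simp only [cval_next, Finset.sum_add_distrib, ← Finset.mul_sum, sum_sg]
      simp
    simp only [this, ← Finset.mul_sum, H.sum_f]
    push_cast; ring
  lower := by
    intro x z m hm hcm
    rw [Fintype.sum_prod_type, Fintype.card_prod]
    -- the increment
    have key : ∀ i (θ : K → Bool),
        cval f (n + 1) (ANext f c n (A i) (s i) θ) (sNext f c n (s i) θ) x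
          - cval f (n + 1) (ANext f c n (A i) (s i) θ) (sNext f c n (s i) θ) z
        = (cval f n (A i) (s i) x - cval f n (A i) (s i) z)
          + (s i x * dtent (f x) n * sg θ (c n x) - s i z * dtent (f z) n * sg θ (c n z)) := by
      intro i θ
      rw [cval_next, cval_next]; ring
    simp only [key]
    have flip : ∀ i, ∀ θ : K → Bool,
        (s i x * dtent (f x) n * sg (flipAll θ) (c n x) - s i z * dtent (f z) n * sg (flipAll θ) (c n z))
        = - (s i x * dtent (f x) n * sg θ (c n x) - s i z * dtent (f z) n * sg θ (c n z)) := by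
      intro i θ
      rw [sg_flipAll, sg_flipAll]; ring
    rcases Nat.lt_succ_iff_lt_or_eq.mp hm with hlt | heq
    · have h0 := H.lower x z m hlt hcm
      have h1 : ∀ i, (Fintype.card (K → Bool) : ℝ) * |cval f n (A i) (s i) x - cval f n (A i) (s i) z|
          ≤ ∑ θ : K → Bool, |(cval f n (A i) (s i) x - cval f n (A i) (s i) z)
          + (s i x * dtent (f x) n * sg θ (c n x) - s i z * dtent (f z) n * sg θ (c n z))| :=
        fun i => (sum_abs_flip _ _ (flip i)).1
      have h2 := Finset.sum_le_sum (fun i (_ : i ∈ (Finset.univ : Finset ι)) => h1 i)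
      rw [← Finset.mul_sum] at h2
      refine le_trans ?_ h2
      push_cast
      have kpos : (0 : ℝ) ≤ (Fintype.card (K → Bool) : ℝ) := Nat.cast_nonneg _
      nlinarith [mul_le_mul_of_nonneg_left h0 kpos]
    · subst heq
      have h1 : ∀ i, (Fintype.card (K → Bool) : ℝ) * (s i x * dtent (f x) m)
          ≤ ∑ θ : K → Bool, |(cval f m (A i) (s i) x - cval f m (A i) (s i) z)
          + (s i x * dtent (f x) m * sg θ (c m x) - s i z * dtent (f z) m * sg θ (c m z))| := by
        intro i
        refine le_trans ?_ (sum_abs_flip _ _ (flip i)).2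
        have := sum_abs_two (s i x * dtent (f x) m) (s i z * dtent (f z) m) hcm
        rwa [abs_of_nonneg (mul_nonneg (H.s_nonneg i x) (dtent_nonneg _ _))] at this
      have h2 := Finset.sum_le_sum (fun i (_ : i ∈ (Finset.univ : Finset ι)) => h1 i)
      rw [← Finset.mul_sum, ← Finset.sum_mul, H.sum_s] at h2
      refine le_trans (le_of_eq ?_) h2
      push_cast; ring

theorem casc_exists (G : SimpleGraph V) (f : V → ℝ) (c : ℕ → V → K)
    (hc : ∀ n u v, G.Adj u v → didx (f u) n = didx (f v) n → c n u = c n v) (n : ℕ) :
    ∃ (ι : Type) (_ : Fintype ι) (A s : ι → V → ℝ), Casc G f c n ι A s := by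
  induction n with
  | zero => exact ⟨Unit, inferInstance, _, _, casc_zero G f c⟩
  | succ n ih =>
    obtain ⟨ι, _, A, s, H⟩ := ih
    exact ⟨ι × (K → Bool), inferInstance, _, _, casc_succ hc H⟩

end Claimed.Agent.R033
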