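import Claimed.Agent.R033.Cascade

/-!
Row 33, conditional chain.  File 4: what the cascade gives for a normalised function `f`.
-/

set_option autoImplicit false
set_option linter.unusedSectionVars false

namespace Claimed.Agent.R033

open Finset

variable {V : Type} {K : Type} [Fintype K] [DecidableEq K]

theorem Casc.mono {G : SimpleGraph V} {f : V → ℝ} {c : ℕ → V → K} {n : ℕ} {ι : Type} [Fintype ι]
    {A s : ι → V → ℝ} (H : Casc G f c n ι A s) (i : ι) {u v : V} (huv : G.Adj u v) (hf : f u ≤ f v) :
    cval f n (A i) (s i) u ≤ cval f n (A i) (s i) v := by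
  unfold cval
  have su := H.s_nonneg i u
  have sv := H.s_nonneg i v
  rcases H.edge i u v huv hf with ⟨hi, hs, hA⟩ | hsep
  · rw [hs, hA, dlo_eq_of_didx_eq hi]
    have : s i v * (f u - dlo (f v) n) ≤ s i v * (f v - dlo (f v) n) :=
      mul_le_mul_of_nonneg_left (by linarith) sv
    linarith
  · have h1 : s i u * (f u - dlo (f u) n) ≤ s i u * (1 / 2 ^ n) :=
      mul_le_mul_of_nonneg_left (by linarith [lt_dlo_add (f u) n]) su
    have h2 : 0 ≤ s i v * (f v - dlo (f v) n) := mul_nonneg sv (by linarith [dlo_le (f v) n])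
    have h3 : s i u * (1 / 2 ^ n) = s i u / 2 ^ n := by ring
    linarith

theorem Casc.edge_sum {G : SimpleGraph V} {f : V → ℝ} {c : ℕ → V → K} {n : ℕ} {ι : Type} [Fintype ι]
    {A s : ι → V → ℝ} (H : Casc G f c n ι A s) {u v : V} (huv : G.Adj u v) (hf : f u ≤ f v) :
    ∑ i, |cval f n (A i) (s i) u - cval f n (A i) (s i) v| = Fintype.card ι * |f u - f v| := by
  have h1 : ∀ i, |cval f n (A i) (s i) u - cval f n (A i) (s i) v|
      = cval f n (A i) (s i) v - cval f n (A i) (s i) u := by
    intro i
    rw [abs_sub_comm, abs_of_nonneg (by linarith [H.mono i huv hf])]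
  simp only [h1, Finset.sum_sub_distrib, H.sum_f]
  rw [abs_sub_comm, abs_of_nonneg (by linarith)]
  ring

theorem osc_core (G : SimpleGraph V) (f : V → ℝ) (c : ℕ → V → K)
    (hc : ∀ n u v, G.Adj u v → didx (f u) n = didx (f v) n → c n u = c n v) (N : ℕ) :
    ∃ (ι : Type) (_ : Fintype ι) (g : ι → V → ℝ),
      (∀ u v, G.Adj u v → ∑ i, |g i u - g i v| = |f u - f v|) ∧
      (∀ x z m, m < N → c m x ≠ c m z → dtent (f x) m ≤ ∑ i, |g i x - g i z|) := by
  obtain ⟨ι, _, A, s, H⟩ := casc_exists G f c hc N
  have hne := H.ne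
  have hcard : (0 : ℝ) < Fintype.card ι := by exact_mod_cast Fintype.card_pos
  refine ⟨ι, inferInstance, fun i x => cval f N (A i) (s i) x / Fintype.card ι, ?_, ?_⟩
  · intro u v huv
    have e : ∀ i, |cval f N (A i) (s i) u / (Fintype.card ι : ℝ) - cval f N (A i) (s i) v / Fintype.card ι|
        = |cval f N (A i) (s i) u - cval f N (A i) (s i) v| / Fintype.card ι := by
      intro i
      rw [← sub_div, abs_div, abs_of_pos hcard]
    simp only [e, ← Finset.sum_div]
    rcases le_total (f u) (f v) with h | h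
    · rw [H.edge_sum huv h]; field_simp
    · have := H.edge_sum huv.symm h
      simp only [abs_sub_comm (cval f N _ _ v)] at this
      rw [this, abs_sub_comm]; field_simp
  · intro x z m hm hcm
    have e : ∀ i, |cval f N (A i) (s i) x / (Fintype.card ι : ℝ) - cval f N (A i) (s i) z / Fintype.card ι|
        = |cval f N (A i) (s i) x - cval f N (A i) (s i) z| / Fintype.card ι := by
      intro i
      rw [← sub_div, abs_div, abs_of_pos hcard]
    simp only [e, ← Finset.sum_div]
    rw [le_div_iff₀ hcard]
    have := H.lower x z m hm hcm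
    linarith

end Claimed.Agent.R033
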