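import Claimed.Agent.R033.Osc

/-!
Row 33, conditional chain.  File 7: from a weighted family of functions to one finite family of coordinates.
No metric yet: `len u v` is any bound on edges, `dist x z` any quantity bounded by the weighted oscillations.
-/

set_option autoImplicit false
set_option linter.unusedSectionVars false

namespace Claimed.Agent.R033

open Finset

variable {V : Type} [Fintype V] [DecidableEq V]

theorem family_embed (G : SimpleGraph V) (hG : G.Connected) {κ : Type} [Fintype κ]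
    (w : κ → ℝ) (F : κ → V → ℝ) (o : κ → V → V → ℝ) (hw : ∀ i, 0 ≤ w i)
    (ho : ∀ i x z, IsOscLB G (F i) x z (o i x z)) :
    ∃ (m : ℕ) (Ψ : Fin m → V → ℝ),
      (∀ u v, G.Adj u v → ∑ t, |Ψ t u - Ψ t v| ≤ 18 * ∑ i, w i * |F i u - F i v|) ∧
      (∀ x z, ∑ i, w i * o i x z ≤ ∑ t, |Ψ t x - Ψ t z|) := by
  choose ι inst Φ hedge hlow using fun i : κ => osc_embed G (F i)
  let _ : ∀ i, Fintype (ι i) := inst
  let J := Σ i, ι i
  let e : J ≃ Fin (Fintype.card J) := Fintype.equivFin J
  let Ψ' : J → V → ℝ := fun p x => 18 * w p.1 * Φ p.1 p.2 x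
  have hsum : ∀ x z, ∑ t, |Ψ' (e.symm t) x - Ψ' (e.symm t) z|
      = ∑ i, 18 * w i * ∑ a, |Φ i a x - Φ i a z| := by
    intro x z
    rw [Equiv.sum_comp e.symm (fun p => |Ψ' p x - Ψ' p z|), Fintype.sum_sigma]
    refine Finset.sum_congr rfl (fun i _ => ?_)
    rw [Finset.mul_sum]
    refine Finset.sum_congr rfl (fun a _ => ?_)
    simp only [Ψ']
    rw [← mul_sub, abs_mul, abs_of_nonneg (mul_nonneg (by norm_num) (hw i))]
  refine ⟨Fintype.card J, fun t => Ψ' (e.symm t), ?_, ?_⟩
  · intro u v huv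
    rw [hsum, Finset.mul_sum]
    refine Finset.sum_le_sum (fun i _ => ?_)
    have := mul_le_mul_of_nonneg_left (hedge i u v huv) (hw i)
    nlinarith
  · intro x z
    rw [hsum]
    refine Finset.sum_le_sum (fun i _ => ?_)
    have := mul_le_mul_of_nonneg_left (hlow i x z _ (hG.preconnected x z) (ho i x z)) (hw i)
    nlinarith

end Claimed.Agent.R033
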