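import Mathlib

/-!
Row 33, conditional chain.  File 5: the 1/3-trick.  For every real `y` and every level `n` one of the three numbers
`(y - j/3) * 2^n`, `j = 0,1,2`, has its fractional part in `[1/3, 2/3]` (because `2^n` is `1` or `2` mod `3`).
-/

set_option autoImplicit false

namespace Claimed.Agent.R033

/-- fractional part in the middle third -/
def Mid (a : ℝ) : Prop := 1 / 3 ≤ Int.fract a ∧ Int.fract a ≤ 2 / 3

theorem mid_sub_int (a : ℝ) (k : ℤ) : Mid (a - k) ↔ Mid a := by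
  unfold Mid; rw [Int.fract_sub_intCast]

theorem mid_three (a : ℝ) : Mid a ∨ Mid (a - 1 / 3) ∨ Mid (a - 2 / 3) := by
  have h0 := Int.fract_nonneg a
  have h1 := Int.fract_lt_one a
  have hfl : Int.fract a = a - ⌊a⌋ := rfl
  by_cases c1 : Int.fract a < 1 / 3
  · right; right
    have : Int.fract (a - 2 / 3) = Int.fract a + 1 / 3 := by
      rw [Int.fract_eq_iff]
      refine ⟨by linarith, by linarith, ⌊a⌋ - 1, ?_⟩
      push_cast; rw [hfl]; ring
    unfold Mid; rw [this]; constructor <;> linarith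
  · by_cases c2 : Int.fract a ≤ 2 / 3
    · left; exact ⟨by linarith, c2⟩
    · right; left
      have : Int.fract (a - 1 / 3) = Int.fract a - 1 / 3 := by
        rw [Int.fract_eq_iff]
        refine ⟨by linarith, by linarith, ⌊a⌋, ?_⟩
        rw [hfl]; ring
      unfold Mid; rw [this]; constructor <;> linarith

theorem pow2_mod3 (n : ℕ) : ∃ k : ℤ, (2 : ℤ) ^ n = 3 * k + 1 ∨ (2 : ℤ) ^ n = 3 * k + 2 := by
  induction n with
  | zero => exact ⟨0, Or.inl (by norm_num)⟩
  | succ n ih =>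
    obtain ⟨k, h | h⟩ := ih
    · exact ⟨2 * k, Or.inr (by rw [pow_succ, h]; ring)⟩
    · exact ⟨2 * k + 1, Or.inl (by rw [pow_succ, h]; ring)⟩

theorem third_trick (y : ℝ) (n : ℕ) : ∃ j : Fin 3, Mid ((y - (j : ℝ) / 3) * 2 ^ n) := by
  obtain ⟨k, hk⟩ := pow2_mod3 n
  have hk' : (2 : ℝ) ^ n = 3 * k + 1 ∨ (2 : ℝ) ^ n = 3 * k + 2 := by
    rcases hk with h | h
    · left; exact_mod_cast h
    · right; exact_mod_cast h
  set a := y * 2 ^ n with ha
  rcases hk' with h | h
  · rcases mid_three a with m | m | m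
    · refine ⟨0, ?_⟩
      have : (y - ((0 : Fin 3) : ℝ) / 3) * 2 ^ n = a := by simp [ha]
      rwa [this]
    · refine ⟨1, ?_⟩
      have : (y - ((1 : Fin 3) : ℝ) / 3) * 2 ^ n = (a - 1 / 3) - (k : ℤ) := by
        have e : ((1 : Fin 3) : ℝ) = 1 := by norm_num
        rw [e, sub_mul, ← ha, h]; ring
      rw [this, mid_sub_int]; exact m
    · refine ⟨2, ?_⟩
      have : (y - ((2 : Fin 3) : ℝ) / 3) * 2 ^ n = (a - 2 / 3) - ((2 * k : ℤ) : ℝ) := by
        have e : ((2 : Fin 3) : ℝ) = 2 := by norm_num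
        rw [e, sub_mul, ← ha, h]; push_cast; ring
      rw [this, mid_sub_int]; exact m
  · rcases mid_three a with m | m | m
    · refine ⟨0, ?_⟩
      have : (y - ((0 : Fin 3) : ℝ) / 3) * 2 ^ n = a := by simp [ha]
      rwa [this]
    · refine ⟨2, ?_⟩
      have : (y - ((2 : Fin 3) : ℝ) / 3) * 2 ^ n = (a - 1 / 3) - ((2 * k + 1 : ℤ) : ℝ) := by
        have e : ((2 : Fin 3) : ℝ) = 2 := by norm_num
        rw [e, sub_mul, ← ha, h]; push_cast; ring
      rw [this, mid_sub_int]; exact m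
    · refine ⟨1, ?_⟩
      have : (y - ((1 : Fin 3) : ℝ) / 3) * 2 ^ n = (a - 2 / 3) - (k : ℤ) := by
        have e : ((1 : Fin 3) : ℝ) = 1 := by norm_num
        rw [e, sub_mul, ← ha, h]; ring
      rw [this, mid_sub_int]; exact m

end Claimed.Agent.R033
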