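import Claimed.Agent.R033.Core
import Claimed.Agent.R033.Offsets

/-!
Row 33, conditional chain.  File 6: THE OSCILLATION THEOREM.
`IsOscLB G F x z r`: every walk from `x` to `z` has `F`-oscillation at least `r`.
`osc_embed`: for every finite graph and every `F : V → ℝ` there is a finite family `Φ i : V → ℝ` with
`∑ i, |Φ i u - Φ i v| ≤ |F u - F v|` on edges and `r ≤ 18 * ∑ i, |Φ i x - Φ i z|` whenever `IsOscLB G F x z r`, `x`, `z` joined.
-/

set_option autoImplicit false
set_option linter.unusedSectionVars false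

namespace Claimed.Agent.R033

open Finset

variable {V : Type} [Fintype V] [DecidableEq V]

/-- every walk from `x` to `z` has oscillation at least `r` -/
def IsOscLB (G : SimpleGraph V) (F : V → ℝ) (x z : V) (r : ℝ) : Prop :=
  ∀ p : G.Walk x z, ∃ u ∈ p.support, ∃ v ∈ p.support, r ≤ F u - F v

/-- joined inside the slab of level `n` of `x` -/
def SlabConn (G : SimpleGraph V) (f : V → ℝ) (n : ℕ) (x y : V) : Prop :=
  ∃ p : G.Walk x y, ∀ w ∈ p.support, didx (f w) n = didx (f x) n

open Classical in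
/-- the class of `x` at level `n` -/
noncomputable def cls (G : SimpleGraph V) (f : V → ℝ) (n : ℕ) (x : V) : Finset V :=
  Finset.univ.filter (SlabConn G f n x)

theorem slabConn_of_adj {G : SimpleGraph V} {f : V → ℝ} {n : ℕ} {u v y : V} (huv : G.Adj u v)
    (hi : didx (f u) n = didx (f v) n) (h : SlabConn G f n u y) : SlabConn G f n v y := by
  obtain ⟨p, hp⟩ := h
  refine ⟨SimpleGraph.Walk.cons huv.symm p, ?_⟩
  intro w hw
  rw [SimpleGraph.Walk.support_cons, List.mem_cons] at hw
  rcases hw with rfl | hw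
  · rfl
  · rw [hp w hw, hi]

theorem cls_adj (G : SimpleGraph V) (f : V → ℝ) (n : ℕ) (u v : V) (huv : G.Adj u v)
    (hi : didx (f u) n = didx (f v) n) : cls G f n u = cls G f n v := by
  ext y
  simp only [cls, Finset.mem_filter, Finset.mem_univ, true_and]
  exact ⟨slabConn_of_adj huv hi, slabConn_of_adj huv.symm hi.symm⟩

theorem slabConn_of_cls_eq {G : SimpleGraph V} {f : V → ℝ} {n : ℕ} {x z : V}
    (h : cls G f n x = cls G f n z) : SlabConn G f n x z := by
  have hz : z ∈ cls G f n z := by
    simp only [cls, Finset.mem_filter, Finset.mem_univ, true_and]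
    exact ⟨SimpleGraph.Walk.nil, by intro w hw; simp at hw; rw [hw]⟩
  rw [← h] at hz
  simpa only [cls, Finset.mem_filter, Finset.mem_univ, true_and] using hz

/-- a positive lower bound for the positive differences of `F` -/
theorem exists_gap (F : V → ℝ) : ∃ γ : ℝ, 0 < γ ∧ ∀ u v, 0 < F u - F v → γ ≤ F u - F v := by
  classical
  set S : Finset ℝ := ((Finset.univ : Finset (V × V)).image (fun p => F p.1 - F p.2)).filter (fun t => 0 < t)
    with hS
  by_cases hne : S.Nonempty
  · refine ⟨S.min' hne, ?_, ?_⟩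
    · exact (Finset.mem_filter.mp (S.min'_mem hne)).2
    · intro u v h
      apply Finset.min'_le
      rw [hS, Finset.mem_filter]
      exact ⟨Finset.mem_image.mpr ⟨(u, v), Finset.mem_univ _, rfl⟩, h⟩
  · refine ⟨1, one_pos, ?_⟩
    intro u v h
    exfalso
    apply hne
    refine ⟨F u - F v, ?_⟩
    rw [hS, Finset.mem_filter]
    exact ⟨Finset.mem_image.mpr ⟨(u, v), Finset.mem_univ _, rfl⟩, h⟩

/-- an upper bound for all differences -/
theorem exists_range (F : V → ℝ) : ∃ D : ℝ, 0 < D ∧ ∀ u v, F u - F v < D := by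
  refine ⟨1 + 2 * ∑ w, |F w|, ?_, ?_⟩
  · have : 0 ≤ ∑ w, |F w| := Finset.sum_nonneg (fun _ _ => abs_nonneg _)
    linarith
  · intro u v
    have hu : |F u| ≤ ∑ w, |F w| :=
      Finset.single_le_sum (f := fun w => |F w|) (fun _ _ => abs_nonneg _) (Finset.mem_univ u)
    have hv : |F v| ≤ ∑ w, |F w| :=
      Finset.single_le_sum (f := fun w => |F w|) (fun _ _ => abs_nonneg _) (Finset.mem_univ v)
    have := le_abs_self (F u)
    have := neg_abs_le (F v)
    linarith

theorem osc_embed (G : SimpleGraph V) (F : V → ℝ) :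
    ∃ (ι : Type) (_ : Fintype ι) (Φ : ι → V → ℝ),
      (∀ u v, G.Adj u v → ∑ i, |Φ i u - Φ i v| ≤ |F u - F v|) ∧
      (∀ x z r, G.Reachable x z → IsOscLB G F x z r → r ≤ 18 * ∑ i, |Φ i x - Φ i z|) := by
  obtain ⟨γ, hγ, hgap⟩ := exists_gap F
  obtain ⟨D, hD, hrange⟩ := exists_range F
  -- number of levels
  obtain ⟨N, hN⟩ : ∃ N : ℕ, D / 2 ^ N < γ := by
    obtain ⟨N, hN⟩ := pow_unbounded_of_one_lt (D / γ) (one_lt_two : (1 : ℝ) < 2)
    refine ⟨N, ?_⟩
    rw [div_lt_iff₀ (pow2_pos N)]
    rw [div_lt_iff₀ hγ] at hN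
    linarith
  -- the three normalised functions
  let f : Fin 3 → V → ℝ := fun j x => F x / D - (j : ℝ) / 3
  choose ι inst g hedge hlow using fun j : Fin 3 =>
    osc_core G (f j) (cls G (f j)) (cls_adj G (f j)) (N + 1)
  let _ : ∀ j, Fintype (ι j) := inst
  refine ⟨Σ j, ι j, inferInstance, fun p x => D / 3 * g p.1 p.2 x, ?_, ?_⟩
  · intro u v huv
    rw [Fintype.sum_sigma]
    have e : ∀ j : Fin 3, ∑ i, |D / 3 * g j i u - D / 3 * g j i v| = |F u - F v| / 3 := by
      intro j
      have : ∀ i, |D / 3 * g j i u - D / 3 * g j i v| = D / 3 * |g j i u - g j i v| := by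
        intro i
        rw [← mul_sub, abs_mul, abs_of_pos (by positivity)]
      simp only [this, ← Finset.mul_sum, hedge j u v huv]
      have : f j u - f j v = (F u - F v) / D := by simp only [f]; ring
      rw [this, abs_div, abs_of_pos hD]
      field_simp
    simp only [e]
    simp
    linarith
  · intro x z r hreach hr
    obtain ⟨p0⟩ := hreach
    have hsum_nonneg : 0 ≤ ∑ p : Σ j, ι j, |D / 3 * g p.1 p.2 x - D / 3 * g p.1 p.2 z| :=
      Finset.sum_nonneg (fun _ _ => abs_nonneg _)
    by_cases hr0' : r ≤ 0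
    · linarith
    have hr0 : 0 < r := not_le.mp hr0'
    -- replace r by max r γ
    set r' := max r γ with hr'
    have hr'valid : IsOscLB G F x z r' := by
      intro p
      obtain ⟨u, hu, v, hv, h⟩ := hr p
      exact ⟨u, hu, v, hv, max_le h (hgap u v (by linarith))⟩
    have hr'D : r' < D := by
      obtain ⟨u, _, v, _, h⟩ := hr'valid p0
      exact lt_of_le_of_lt h (hrange u v)
    have hγr' : γ ≤ r' := le_max_right _ _
    have hex : ∃ n : ℕ, D / 2 ^ n < r' := ⟨N, lt_of_lt_of_le hN hγr'⟩
    classical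
    set n := Nat.find hex with hn
    have hn1 : D / 2 ^ n < r' := Nat.find_spec hex
    have hnN : n ≤ N := Nat.find_min' hex (lt_of_lt_of_le hN hγr')
    have hn0 : n ≠ 0 := by
      intro h0
      rw [h0] at hn1
      simp at hn1
      linarith
    have hn2 : r' ≤ 2 * (D / 2 ^ n) := by
      obtain ⟨m, hm⟩ := Nat.exists_eq_succ_of_ne_zero hn0
      have this' : ¬ D / 2 ^ m < r' := Nat.find_min hex (by omega)
      have this : r' ≤ D / 2 ^ m := not_lt.mp this'
      rw [hm, Nat.succ_eq_add_one, pow_succ]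
      have e : 2 * (D / (2 ^ m * 2)) = D / 2 ^ m := by field_simp
      rw [e]; exact this
    -- classes differ for every offset
    have hdiff : ∀ j : Fin 3, cls G (f j) n x ≠ cls G (f j) n z := by
      intro j heq
      obtain ⟨p, hp⟩ := slabConn_of_cls_eq heq
      obtain ⟨u, hu, v, hv, h⟩ := hr'valid p
      have h1 : f j u - f j v < 1 / 2 ^ n := sub_lt_of_didx_eq ((hp u hu).trans (hp v hv).symm)
      have h2 : f j u - f j v = (F u - F v) / D := by simp only [f]; ring
      rw [h2, div_lt_iff₀ hD] at h1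
      have h3 : 1 / 2 ^ n * D = D / 2 ^ n := by ring
      linarith
    -- a good offset
    obtain ⟨j, hj⟩ := third_trick (F x / D) n
    have htent : 1 / 3 / 2 ^ n ≤ dtent (f j x) n := dtent_ge hj.1 hj.2
    have hL := hlow j x z n (by omega) (hdiff j)
    have hpart : D / 3 * ∑ i, |g j i x - g j i z|
        ≤ ∑ p : Σ j, ι j, |D / 3 * g p.1 p.2 x - D / 3 * g p.1 p.2 z| := by
      rw [Fintype.sum_sigma]
      have e : ∀ j' : Fin 3, ∑ i, |D / 3 * g j' i x - D / 3 * g j' i z|
          = D / 3 * ∑ i, |g j' i x - g j' i z| := by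
        intro j'
        rw [Finset.mul_sum]
        refine Finset.sum_congr rfl (fun i _ => ?_)
        rw [← mul_sub, abs_mul, abs_of_pos (by positivity)]
      simp only [e]
      exact Finset.single_le_sum (f := fun j' => D / 3 * ∑ i, |g j' i x - g j' i z|)
        (fun j' _ => mul_nonneg (by positivity) (Finset.sum_nonneg (fun _ _ => abs_nonneg _)))
        (Finset.mem_univ j)
    have h4 : D / 3 * (1 / 3 / 2 ^ n) ≤ D / 3 * ∑ i, |g j i x - g j i z| :=
      mul_le_mul_of_nonneg_left (le_trans htent hL) (by positivity)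
    have h5 : D / 3 * (1 / 3 / 2 ^ n) = D / 2 ^ n / 9 := by ring
    have h6 : r ≤ r' := le_max_left _ _
    linarith

end Claimed.Agent.R033
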