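import Claimed.Agent.R033.Family
import Claimed.Prelude.Def_0053

/-!
Row 33, conditional chain (bulletin B27).  File 8:  `Crux73 → MainStatement` (the frozen statement S0073).

`Crux73` (form (**) of the notes): for every `k` there is `C` such that every connected graph with a tree decomposition
with bags of size `≤ k` and every positive length function carry a finite weighted family of ARBITRARY functions
`F i : V → ℝ` with
* `∑ i, w i * |F i u - F i v| ≤ C * ℓ(uv)` on EDGES,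
* `d(x,z) ≤ ∑ i, w i * o i x z` for all pairs, where every walk from `x` to `z` has `F i`-oscillation `≥ o i x z`.
Cuts (`F = 1_S`) are such functions, so `Crux73` is equivalent to S0073; but `F = d(r,·)` alone already does trees,
diamond graphs, `K_{2,n}`; soundness needs no tree decomposition, no gluing lemma.
-/

set_option autoImplicit false
set_option linter.unusedSectionVars false

namespace Claimed.Agent.R033

open Finset Claims.C0053.BoundedTreewidthL1

/-- a weighted family of functions that is Lipschitz on average and light on average -/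
def HasLightFamily {V : Type} [Fintype V] [DecidableEq V] (G : SimpleGraph V) (ℓ : G.edgeSet → ℝ)
    (C : ℝ) : Prop :=
  ∃ (κ : Type) (_ : Fintype κ) (w : κ → ℝ) (F : κ → V → ℝ) (o : κ → V → V → ℝ),
    (∀ i, 0 ≤ w i) ∧ (∀ i x z, IsOscLB G (F i) x z (o i x z)) ∧
    (∀ u v (h : G.Adj u v), ∑ i, w i * |F i u - F i v| ≤ C * ℓ ⟨s(u, v), h⟩) ∧
    (∀ x z, shortestPathDistance G ℓ x z ≤ ∑ i, w i * o i x z)

/-- THE CRUX of S0073 -/
def Crux73 : Prop :=
  ∀ k : ℕ, 2 ≤ k → ∃ C : ℝ, 1 ≤ C ∧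
    ∀ (V : Type) [Fintype V] [DecidableEq V] [Nonempty V] (G : SimpleGraph V),
      G.Connected → HasTreeDecomposition G k →
      ∀ ℓ : G.edgeSet → ℝ, (∀ e, 0 < ℓ e) → HasLightFamily G ℓ C

variable {V : Type} [Fintype V] [DecidableEq V]

theorem walk_bound (G : SimpleGraph V) (ℓ : G.edgeSet → ℝ) {m : ℕ} (Ψ : Fin m → V → ℝ) (C : ℝ)
    (h : ∀ u v (h : G.Adj u v), ∑ t, |Ψ t u - Ψ t v| ≤ C * ℓ ⟨s(u, v), h⟩) :
    ∀ {u v : V} (p : G.Walk u v), ∑ t, |Ψ t u - Ψ t v| ≤ C * walkLength G ℓ p := by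
  intro u v p
  induction p with
  | nil => simp [walkLength]
  | @cons a b c hab p ih =>
    have h1 : ∑ t, |Ψ t a - Ψ t c| ≤ ∑ t, |Ψ t a - Ψ t b| + ∑ t, |Ψ t b - Ψ t c| := by
      rw [← Finset.sum_add_distrib]
      exact Finset.sum_le_sum (fun t _ => abs_sub_le _ _ _)
    have h2 := h a b hab
    simp only [walkLength]
    linarith

theorem embedding_of_family (G : SimpleGraph V) (hG : G.Connected) (ℓ : G.edgeSet → ℝ) {C : ℝ}
    (hC : 1 ≤ C) (H : HasLightFamily G ℓ C) : HasL1Embedding G ℓ (18 * C) := by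
  obtain ⟨κ, _, w, F, o, hw, ho, hU, hL⟩ := H
  obtain ⟨m, Ψ, hedge, hlow⟩ := family_embed G hG w F o hw ho
  have hedge' : ∀ u v (h : G.Adj u v), ∑ t, |Ψ t u - Ψ t v| ≤ (18 * C) * ℓ ⟨s(u, v), h⟩ := by
    intro u v h
    have := hedge u v h
    have := hU u v h
    linarith
  refine ⟨m, fun x => WithLp.toLp 1 (fun t => Ψ t x), ?_⟩
  intro u v
  have hnorm : ‖(WithLp.toLp 1 (fun t => Ψ t u) : PiLp (1 : ENNReal) (fun _ : Fin m => ℝ))
      - WithLp.toLp 1 (fun t => Ψ t v)‖ = ∑ t, |Ψ t u - Ψ t v| := by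
    rw [PiLp.norm_eq_of_L1]
    simp [Real.norm_eq_abs]
  rw [hnorm]
  refine ⟨le_trans (hL u v) (hlow u v), ?_⟩
  have hpos : (0 : ℝ) < 18 * C := by linarith
  have hne : {r : ℝ | ∃ p : G.Walk u v, p.IsPath ∧ walkLength G ℓ p = r}.Nonempty := by
    obtain ⟨p, hp⟩ := hG.exists_isPath u v
    exact ⟨_, p, hp, rfl⟩
  have : (∑ t, |Ψ t u - Ψ t v|) / (18 * C) ≤ shortestPathDistance G ℓ u v := by
    apply le_csInf hne
    rintro r ⟨p, _, rfl⟩
    rw [div_le_iff₀ hpos]
    have := walk_bound G ℓ Ψ (18 * C) hedge' p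
    linarith
  rw [div_le_iff₀ hpos] at this
  linarith

theorem result_of_crux73 (h : Crux73) : MainStatement := by
  intro k hk
  obtain ⟨C, hC, H⟩ := h k hk
  refine ⟨18 * C, by linarith, ?_⟩
  intro V _ _ _ G hG hT ℓ hℓ
  exact embedding_of_family G hG ℓ hC (H V G hG hT ℓ hℓ)

end Claimed.Agent.R033
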