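import Claimed.Agent.R033.Family
import Claimed.Prelude.Def_0054

/-!
Row 33, conditional chain (bulletin B27).  File 9:  `Crux74 → MainStatement` (the frozen statement S0074, planar graphs).
Same crux as in `S73.lean`, for planar graphs: a weighted family of arbitrary functions, Lipschitz on average on edges,
light on average on all pairs.
-/

set_option autoImplicit false
set_option linter.unusedSectionVars false

namespace Claimed.Agent.R033

open Finset Claims.C0054.PlanarL1 MeasureTheory

/-- THE CRUX of S0074 -/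
def Crux74 : Prop :=
  ∃ C : ℝ, 1 ≤ C ∧
    ∀ (n : ℕ) (G : SimpleGraph (Fin n)) (length : Fin n → Fin n → ℝ),
      G.Connected → IsPlanar G →
      (∀ u v, length u v = length v u) →
      (∀ u v, G.Adj u v → 0 < length u v) →
      ∃ (κ : Type) (_ : Fintype κ) (w : κ → ℝ) (F : κ → Fin n → ℝ) (o : κ → Fin n → Fin n → ℝ),
        (∀ i, 0 ≤ w i) ∧ (∀ i x z, IsOscLB G (F i) x z (o i x z)) ∧
        (∀ u v, G.Adj u v → ∑ i, w i * |F i u - F i v| ≤ C * length u v) ∧
        (∀ x z, graphDistance G length x z ≤ ∑ i, w i * o i x z)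

theorem walk_bound74 {V : Type} (G : SimpleGraph V) (length : V → V → ℝ) {m : ℕ} (Ψ : Fin m → V → ℝ)
    (C : ℝ) (h : ∀ u v, G.Adj u v → ∑ t, |Ψ t u - Ψ t v| ≤ C * length u v) :
    ∀ {u v : V} (p : G.Walk u v), ∑ t, |Ψ t u - Ψ t v| ≤ C * walkLength length p := by
  intro u v p
  induction p with
  | nil => simp [walkLength]
  | @cons a b c hab p ih =>
    have h1 : ∑ t, |Ψ t a - Ψ t c| ≤ ∑ t, |Ψ t a - Ψ t b| + ∑ t, |Ψ t b - Ψ t c| := by
      rw [← Finset.sum_add_distrib]
      exact Finset.sum_le_sum (fun t _ => abs_sub_le _ _ _)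
    have h2 := h a b hab
    simp only [walkLength]
    linarith

/-- a finite family of coordinates as elements of `L¹` of the counting measure on `Fin m` -/
theorem exists_L1 {V : Type} {m : ℕ} (Ψ : Fin m → V → ℝ) :
    ∃ (f : V → Lp ℝ 1 (Measure.count : Measure (Fin m))),
      ∀ x y, ‖f x - f y‖ = ∑ t, |Ψ t x - Ψ t y| := by
  have hmem : ∀ x, MemLp (fun t => Ψ t x) 1 (Measure.count : Measure (Fin m)) := fun x => MemLp.of_discrete
  refine ⟨fun x => (hmem x).toLp _, ?_⟩
  intro x y
  rw [← MemLp.toLp_sub, L1.norm_eq_integral_norm]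
  have : ∀ᵐ t ∂(Measure.count : Measure (Fin m)),
      ‖(((hmem x).sub (hmem y)).toLp _ : Lp ℝ 1 (Measure.count : Measure (Fin m))) t‖
        = |Ψ t x - Ψ t y| := by
    filter_upwards [MemLp.coeFn_toLp ((hmem x).sub (hmem y))] with t ht
    rw [ht]; simp [Real.norm_eq_abs]
  rw [integral_congr_ae this, integral_count]

theorem result_of_crux74 (h : Crux74) : MainStatement := by
  obtain ⟨C, hC, H⟩ := h
  refine ⟨18 * C, by linarith, ?_⟩
  intro n G length hG hP hsymm hpos
  obtain ⟨κ, _, w, F, o, hw, ho, hU, hL⟩ := H n G length hG hP hsymm hpos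
  obtain ⟨m, Ψ, hedge, hlow⟩ := family_embed G hG w F o hw ho
  have hedge' : ∀ u v, G.Adj u v → ∑ t, |Ψ t u - Ψ t v| ≤ (18 * C) * length u v := by
    intro u v h
    have := hedge u v h
    have := hU u v h
    linarith
  obtain ⟨f, hf⟩ := exists_L1 Ψ
  refine ⟨Fin m, inferInstance, Measure.count, f, ?_⟩
  intro u v
  rw [hf]
  refine ⟨le_trans (hL u v) (hlow u v), ?_⟩
  have hpos' : (0 : ℝ) < 18 * C := by linarith
  have hne : (Set.range (fun p : G.Walk u v => walkLength length p)).Nonempty := by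
    obtain ⟨p⟩ := hG.preconnected u v
    exact ⟨_, p, rfl⟩
  have : (∑ t, |Ψ t u - Ψ t v|) / (18 * C) ≤ graphDistance G length u v := by
    apply le_csInf hne
    rintro r ⟨p, rfl⟩
    rw [div_le_iff₀ hpos']
    have := walk_bound74 G length Ψ (18 * C) hedge' p
    simp only
    linarith
  rw [div_le_iff₀ hpos'] at this
  linarith

end Claimed.Agent.R033
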