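import Mathlib

/-!
Row 33 (S0073, S0074), conditional chain (bulletin B27).  File 1: sums over sign patterns.

`sg θ k = ±1` for `θ : K → Bool`.  Three facts, all proved by an involution of `K → Bool`:
* `sum_sg`        : `∑ θ, sg θ k = 0`
* `sum_abs_flip`  : if `y (!θ) = - y θ` then `∑ θ, |a + y θ| ≥ card * |a|` and `≥ ∑ θ, |y θ|`
* `sum_abs_two`   : if `k ≠ k'` then `∑ θ, |α * sg θ k - β * sg θ k'| ≥ card * |α|`
-/

set_option autoImplicit false
set_option linter.unusedSectionVars false

namespace Claimed.Agent.R033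

open Finset

variable {K : Type} [Fintype K] [DecidableEq K]

/-- the sign `±1` of the pattern `θ` at `k` -/
def sg (θ : K → Bool) (k : K) : ℝ := if θ k then 1 else -1

theorem abs_sg (θ : K → Bool) (k : K) : |sg θ k| = 1 := by
  unfold sg; split_ifs <;> simp

theorem sg_mul_self (θ : K → Bool) (k : K) : sg θ k * sg θ k = 1 := by
  unfold sg; split_ifs <;> simp

theorem sg_le_one (θ : K → Bool) (k : K) : sg θ k ≤ 1 := by
  unfold sg; split_ifs <;> norm_num

theorem neg_one_le_sg (θ : K → Bool) (k : K) : -1 ≤ sg θ k := by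
  unfold sg; split_ifs <;> norm_num

/-- flip all signs -/
def flipAll : (K → Bool) ≃ (K → Bool) where
  toFun θ := fun k => !θ k
  invFun θ := fun k => !θ k
  left_inv θ := by funext k; simp
  right_inv θ := by funext k; simp

theorem sg_flipAll (θ : K → Bool) (k : K) : sg (flipAll θ) k = - sg θ k := by
  unfold sg flipAll
  cases h : θ k <;> simp [h]

/-- flip the sign at `k'` -/
def flipAt (k' : K) : (K → Bool) ≃ (K → Bool) where
  toFun θ := Function.update θ k' (!θ k')
  invFun θ := Function.update θ k' (!θ k')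
  left_inv θ := by funext k; by_cases h : k = k' <;> simp [Function.update, h]
  right_inv θ := by funext k; by_cases h : k = k' <;> simp [Function.update, h]

theorem sg_flipAt_self (θ : K → Bool) (k' : K) : sg (flipAt k' θ) k' = - sg θ k' := by
  unfold sg flipAt
  cases h : θ k' <;> simp [h]

theorem sg_flipAt_ne (θ : K → Bool) {k k' : K} (h : k ≠ k') : sg (flipAt k' θ) k = sg θ k := by
  unfold sg flipAt
  simp [Function.update, h]

theorem sum_sg (k : K) : ∑ θ : K → Bool, sg θ k = 0 := by
  have h : ∑ θ : K → Bool, sg θ k = ∑ θ : K → Bool, - sg θ k := by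
    rw [← Equiv.sum_comp flipAll]
    exact Finset.sum_congr rfl (fun θ _ => sg_flipAll θ k)
  rw [Finset.sum_neg_distrib] at h
  linarith

theorem sum_abs_flip (a : ℝ) (y : (K → Bool) → ℝ) (hy : ∀ θ, y (flipAll θ) = - y θ) :
    (Fintype.card (K → Bool) : ℝ) * |a| ≤ ∑ θ : K → Bool, |a + y θ| ∧
      ∑ θ : K → Bool, |y θ| ≤ ∑ θ : K → Bool, |a + y θ| := by
  have h : ∑ θ : K → Bool, |a + y θ| = ∑ θ : K → Bool, |a - y θ| := by
    rw [← Equiv.sum_comp flipAll]
    refine Finset.sum_congr rfl (fun θ _ => ?_)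
    rw [hy, sub_eq_add_neg]
  constructor
  · have h2 : ∑ _θ : K → Bool, (2 * |a|) ≤ ∑ θ : K → Bool, (|a + y θ| + |a - y θ|) := by
      refine Finset.sum_le_sum (fun θ _ => ?_)
      have : |(a + y θ) + (a - y θ)| ≤ |a + y θ| + |a - y θ| := abs_add_le _ _
      have e : (a + y θ) + (a - y θ) = 2 * a := by ring
      rw [e, abs_mul] at this
      simpa using this
    rw [Finset.sum_add_distrib, ← h, Finset.sum_const, Finset.card_univ, nsmul_eq_mul] at h2
    linarith
  · have h2 : ∑ θ : K → Bool, (2 * |y θ|) ≤ ∑ θ : K → Bool, (|a + y θ| + |a - y θ|) := by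
      refine Finset.sum_le_sum (fun θ _ => ?_)
      have : |(a + y θ) - (a - y θ)| ≤ |a + y θ| + |a - y θ| := abs_sub _ _
      have e : (a + y θ) - (a - y θ) = 2 * y θ := by ring
      rw [e, abs_mul] at this
      simpa using this
    rw [Finset.sum_add_distrib, ← h, ← Finset.mul_sum] at h2
    linarith

theorem sum_abs_two (α β : ℝ) {k k' : K} (hk : k ≠ k') :
    (Fintype.card (K → Bool) : ℝ) * |α| ≤ ∑ θ : K → Bool, |α * sg θ k - β * sg θ k'| := by
  have h : ∑ θ : K → Bool, |α * sg θ k - β * sg θ k'| = ∑ θ : K → Bool, |α * sg θ k + β * sg θ k'| := by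
    rw [← Equiv.sum_comp (flipAt k')]
    refine Finset.sum_congr rfl (fun θ _ => ?_)
    rw [sg_flipAt_self, sg_flipAt_ne θ hk]
    congr 1; ring
  have h2 : ∑ _θ : K → Bool, (2 * |α|) ≤
      ∑ θ : K → Bool, (|α * sg θ k - β * sg θ k'| + |α * sg θ k + β * sg θ k'|) := by
    refine Finset.sum_le_sum (fun θ _ => ?_)
    have : |(α * sg θ k - β * sg θ k') + (α * sg θ k + β * sg θ k')| ≤
        |α * sg θ k - β * sg θ k'| + |α * sg θ k + β * sg θ k'| := abs_add_le _ _
    have e : (α * sg θ k - β * sg θ k') + (α * sg θ k + β * sg θ k') = 2 * (α * sg θ k) := by ring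
    rw [e, abs_mul, abs_mul, abs_sg] at this
    simpa using this
  rw [Finset.sum_add_distrib, ← h, Finset.sum_const, Finset.card_univ, nsmul_eq_mul] at h2
  linarith

end Claimed.Agent.R033
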